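import Vale.Agent.P181.TL.Defs
import Vale.Agent.P181.R2.H182.VDefs

set_option autoImplicit false

/-!
# P181, GK: two nearly equal long rows (`4 w > a b`): the literals

The moving frame `YY` of theorem V (`r = 1`, blocks of `nn 1 = 5` points), applied to the first two
coordinates only: an equal first and second row cost a constant factor in the size.
-/

open MvPolynomial

namespace Vale.Agent.P181.GK

open Vale.Agent.P181.T4 (HW)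
open Vale.Agent.P181.H280 (plethMult plethAct hwSpace IsBorel)
open Vale.Agent.P181.SZ (tl)
open Vale.Agent.P181.FR
open Vale.Agent.P181.VT

/-- The first two coordinates of a configuration. -/
def xx {B n : ℕ} (p : Fin B → Fin (n + 2) → ℂ) : Fin B → Fin (1 + 1) → ℂ :=
  fun j => Fin.cons (p j 0) fun _ => p j 1

/-- New first two coordinates. -/
def cb {n : ℕ} (v : Fin (1 + 1) → ℂ) (q : Fin (n + 2) → ℂ) : Fin (n + 2) → ℂ :=
  Fin.cons (v 0) (Fin.cons (v 1) fun i : Fin n => q i.succ.succ)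

/-- The weight `(x, y, lam_3, lam_4, ..)`. -/
def wt2 {n : ℕ} (x y : ℕ) (lam : Fin (n + 2) → ℕ) : Fin (n + 2) → ℕ :=
  Fin.cons x (Fin.cons y fun i : Fin n => lam i.succ.succ)

/-- The polarised substitution in the first two coordinates, with the factor `det ^ s`. -/
noncomputable def TG {k N n : ℕ} (s : ℕ) (τ : Fin N → Fin k → ℂ) (α : Fin N → ℂ)
    (H : Matrix (Fin (1 + 1)) (Fin (1 + 1)) ℂ) (F : (Fin (k * nn 1) → Fin (n + 2) → ℂ) → ℂ) :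
    (Fin (k * nn 1) → Fin (n + 2) → ℂ) → ℂ :=
  fun p => ∑ i, α i * ((YY (τ i) (xx p) * H).det ^ s *
    F fun j => cb (Matrix.vecMul (xx p j) (YY (τ i) (xx p) * H)) (p j))

/-- **(G2)** membership (twin of V2). -/
def G2 : Prop := ∀ {k N n : ℕ} (s c a : ℕ) (τ : Fin N → Fin k → ℂ) (α : Fin N → ℂ)
  (H : Matrix (Fin (1 + 1)) (Fin (1 + 1)) ℂ) (F : (Fin (k * nn 1) → Fin (n + 2) → ℂ) → ℂ)
  (lam : Fin (n + 2) → ℕ), Polar k (nn 1 * c) τ α → lam 0 + lam 1 + 2 * s = k * nn 1 * c →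
  F ∈ MP (k * nn 1) (n + 2) a → HWF (k * nn 1) (n + 2) lam F →
  TG s τ α H F ∈ MP (k * nn 1) (n + 2) (a + nn 1 * c)

/-- **(G3)** highest weight functions (twin of V3); `1 ≤ s` kills the singular frames. -/
def G3 : Prop := ∀ {k N n : ℕ} (s a : ℕ) (τ : Fin N → Fin k → ℂ) (α : Fin N → ℂ)
  (H : Matrix (Fin (1 + 1)) (Fin (1 + 1)) ℂ) (F : (Fin (k * nn 1) → Fin (n + 2) → ℂ) → ℂ)
  (lam : Fin (n + 2) → ℕ), 1 ≤ s → F ∈ MP (k * nn 1) (n + 2) a →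
  HWF (k * nn 1) (n + 2) lam F →
  HWF (k * nn 1) (n + 2)
    (wt2 (3 * (lam 0 + lam 1) + 5 * s) (3 * (lam 0 + lam 1) + 5 * s) lam) (TG s τ α H F)

/-- **(G6)** injectivity up to `(D + 1) ^ 4` frames, `D = 5 k c` (twin of V6). -/
def G6 : Prop := ∀ {k N n N0 N1 : ℕ} (s c a : ℕ) (τ : Fin N → Fin k → ℂ) (α : Fin N → ℂ)
  (q : (Fin (nn 1) → Fin (1 + 1) → ℂ) → ℂ) (z : Fin (nn 1) → Fin (1 + 1) → ℂ)
  (lam : Fin (n + 2) → ℕ), Polar k (nn 1 * c) τ α → SepQ 1 N0 N1 q z → 1 ≤ s →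
  lam 0 + lam 1 + 2 * s = k * nn 1 * c →
  ∃ (M : ℕ) (H : Fin M → Matrix (Fin (1 + 1)) (Fin (1 + 1)) ℂ),
    M ≤ (k * nn 1 * c + 1) ^ 4 ∧
    ∀ F ∈ MP (k * nn 1) (n + 2) a, HWF (k * nn 1) (n + 2) lam F → F ≠ 0 →
      (∀ (σ : Equiv.Perm (Fin (k * nn 1))) (p : Fin (k * nn 1) → Fin (n + 2) → ℂ),
        F (fun j => p (σ j)) = F p) →
      ∃ (l : Fin M) (p : Fin (k * nn 1) → Fin (n + 2) → ℂ), ∑ σ : Equiv.Perm (Fin (k * nn 1)),
        QQ q (fun j => xx p (σ j)) * TG s τ α (H l) F (fun j => p (σ j)) ≠ 0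

/-- **(G7)** from `(x, y, τ)` to two equal first rows. -/
def GapKill : Prop := ∃ N0 N1 : ℕ, 5 * N0 = 2 * N1 ∧ ∀ (k c s a n : ℕ) (lam : Fin (n + 2) → ℕ),
  1 ≤ k → 1 ≤ s → lam 0 + lam 1 + 2 * s = k * nn 1 * c →
  plethMult (k * nn 1) a (n + 2) lam ≤ (k * nn 1 * c + 1) ^ 4 *
    plethMult (k * nn 1) (a + nn 1 * c + N0) (n + 2)
      (wt2 (3 * (lam 0 + lam 1) + 5 * s + k * N1) (3 * (lam 0 + lam 1) + 5 * s + k * N1) lam)

/-- **(PAD)** two rows inside `n + 2` rows. -/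
def PadPos : Prop := ∀ (B a n : ℕ) (mu : Fin 2 → ℕ), Pos B a 2 mu →
  Pos B a (n + 2) (wt2 (mu 0) (mu 1) fun _ => 0)

/-- **(FIL)** from two equal rows `(W, W, τ)` in `Sym^B Sym^A` to `lam` in `Sym^b Sym^a`
(`plethMult_pt`, `plethMult_mul`, `pos_all` with `m = i = 2`, `PadPos`). -/
def FillG : Prop := ∃ a₀ : ℕ, ∀ (a b B A W n : ℕ) (lam : Fin (n + 2) → ℕ),
  lam 1 ≤ lam 0 → ∑ i, lam i = a * b → A + a₀ ≤ a → a₀ ≤ B → B ≤ b →
  B * A = 2 * W + ∑ i : Fin n, lam i.succ.succ →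
  B % 2 = (∑ i : Fin n, lam i.succ.succ) % 2 →
  W + B * (a - A) / 2 + 9 * a ≤ lam 1 →
  plethMult B A (n + 2) (wt2 W W lam) ≤ plethMult b a (n + 2) lam

open scoped Classical in
/-- **(SIZ)** `TL.SizeB` with `a` pieces and size bound `A`. -/
def SizeG : Prop := ∀ (a A B q m w M : ℕ), 0 < a → 1 ≤ q → 1 ≤ m → 1 ≤ M →
  2 * (M + q * (a / m) + q + 1) ≤ A → q * a * (M + q * (a / m) + q) + 4 * M * q * a ≤ w →
  A ≤ a → 3 * q * a + 3 * (w / A) + 3 ≤ B →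
  ∃ (H : ℕ) (s : Fin a × Fin q → ℕ) (p : Fin H → ℕ) (l : Fin a × Fin q → Fin H),
    (∀ j, M < s j) ∧ (∀ j h, s j < p h) ∧ (∀ h, p h ≤ A) ∧ 3 * (a * q + H) ≤ B ∧
    ∑ j, s j + ∑ h, p h = w ∧
    (∀ j j' : Fin a × Fin q, s j = s j' → (j.1 : ℕ) / m = (j'.1 : ℕ) / m ∧ j.2 = j'.2) ∧
    ∀ h, (Finset.univ.filter fun j => l j = h).card * M ≤ p h

/-- **(LOW)** `TL.LowB` with `a` pieces in `Sym^B Sym^A` (from `RefB`, `LiftB`, `KeyB`, `SizeG`,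
`LowerS`, `TransS`; the first row is `A B - w`, the second one `w - t`). -/
def LowG : Prop := ∀ (a A B k q m X w : ℕ) (tau : Fin k → ℕ) (f : Fin a → ℕ),
  0 < a → A ≤ a → 2 ≤ q → 1 ≤ m → 1 ≤ X → 2 * m * q * X ≤ (∑ i, tau i) / a / q →
  (∀ i : Fin a, f i = (∑ i, tau i) / a + if (i : ℕ) < (∑ i, tau i) % a then 1 else 0) →
  2 * (2 * ((∑ i, tau i) / a / q) + q + q * (a / m) + q + 1) ≤ A →
  q * a * (2 * ((∑ i, tau i) / a / q) + q + q * (a / m) + q) +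
    4 * (2 * ((∑ i, tau i) / a / q) + q) * q * a ≤ w →
  3 * q * a + 3 * (w / A) + 3 ≤ B →
  X ^ ((q - 1) * a) * Module.finrank ℂ (TL.KK k (Fin a) f tau) ≤
    plethMult B A (k + 2) (Fin.cons (A * B - w) (Fin.cons (w - ∑ i, tau i) tau))

/-- All parameters: `q, m, X, w` for `LowG` in `Sym^B Sym^A`, `B = 5 k'`, then `c, s` for
`GapKill`. -/
structure Par (N0 a₀ a b t A k' c s q m X w : ℕ) : Prop where
  ha : 0 < a
  hA : A ≤ a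
  hq : 2 ≤ q
  hm : 1 ≤ m
  hX : 1 ≤ X
  hk : 1 ≤ k'
  hs : 1 ≤ s
  key : 2 * m * q * X ≤ t / a / q
  szA : 2 * (2 * (t / a / q) + q + q * (a / m) + q + 1) ≤ A
  szw : q * a * (2 * (t / a / q) + q + q * (a / m) + q) + 4 * (2 * (t / a / q) + q) * q * a ≤ w
  szB : 3 * q * a + 3 * (w / A) + 3 ≤ k' * nn 1
  al : A * (k' * nn 1) + 2 * s = k' * nn 1 * c + t
  fa : A + nn 1 * c + N0 + a₀ ≤ a
  fB : a₀ ≤ k' * nn 1
  fb : 4 * (k' * nn 1) ≤ b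
  par : (k' * nn 1) % 2 = t % 2
  gain : (a + b).choose a * (a + t - 1).choose t * (k' * nn 1 * c + 1) ^ 4 ≤ X ^ ((q - 1) * a)

/-- **(COR)** assembly (from `UpB`, `BalB`, `LowG`, `GapKill`, `FillG`). -/
def CoreG : Prop := ∃ N0 a₀ : ℕ, ∀ (a b n A k' c s q m X w : ℕ) (lam : Fin (n + 2) → ℕ),
  Antitone lam → ∑ i, lam i = a * b → a * b ≤ 4 * ∑ i, tl lam i → 100 ≤ b →
  1000 * TL.dn2 lam ≤ lam 1 → Par N0 a₀ a b (TL.dn2 lam) A k' c s q m X w →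
  plethMult a b (n + 2) lam ≤ plethMult b a (n + 2) lam

/-- **(NUM)** the parameters exist. -/
def NumG : Prop := ∀ (N0 a₀ : ℕ) (C₀ c₀ : ℝ), 0 < C₀ → 0 ≤ c₀ → ∃ C c : ℝ, 0 < C ∧ 0 < c ∧
  ∀ a b t : ℕ, 0 < a → 100 * a ≤ b → (b : ℝ) ≤ C₀ * (1 + Real.log a) ^ c₀ * a →
  C * (1 + Real.log a) ^ c * a ≤ t → 40000 * t ≤ a * b →
  ∃ A k' c' s q m X w : ℕ, Par N0 a₀ a b t A k' c' s q m X w

/-- **(FIN)** two long rows, no condition on the first row (from `CoreG`, `NumG`, `PLX`). -/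
def TwoLongG : Prop := ∃ C c : ℝ, 0 < C ∧ 0 < c ∧ ∀ (a b n : ℕ) (lam : Fin (n + 2) → ℕ),
  Antitone lam → ∑ i, lam i = a * b → 0 < a → 100 * a ≤ b →
  C * (1 + Real.log a) ^ c * a ≤ TL.dn2 lam → 20000 * TL.dn2 lam ≤ lam 1 →
  a * b ≤ 4 * ∑ i, tl lam i →
  plethMult a b (n + 2) lam ≤ plethMult b a (n + 2) lam

end Vale.Agent.P181.GK
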