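import Vale.Agent.P181.GK.Defs

set_option autoImplicit false

/-!
# P181, GK: the form with an absolute constant `b ≥ C a` (all `D_2`)
-/

namespace Vale.Agent.P181.GK

open Vale.Agent.P181.H280 (plethMult)
open Vale.Agent.P181.SZ (tl)

/-- **(NUM2)** the parameters exist, `b ≥ C a`, `b ≤ t + a`, for all large `a`. -/
def NumC : Prop := ∀ (N0 a₀ : ℕ) (C₀ c₀ : ℝ), 0 < C₀ → 0 ≤ c₀ → ∃ C a₁ : ℕ,
  ∀ a b t : ℕ, a₁ ≤ a → C * a ≤ b → b ≤ t + a → (b : ℝ) ≤ C₀ * (1 + Real.log a) ^ c₀ * a →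
  40000 * t ≤ a * b →
  ∃ A k' c' s q m X w : ℕ, Par N0 a₀ a b t A k' c' s q m X w

/-- **(FIN2)** two long rows, possibly equal, `b ≥ C a`, any number of boxes below row two up to
`λ_2 / 20000` (from `CoreG`, `NumC`, `PLX`, `FewBelowRowTwo`). -/
def TwoLongC : Prop := ∃ C : ℕ, ∀ (a b n : ℕ) (lam : Fin (n + 2) → ℕ),
  C * a ≤ b → 20000 * TL.dn2 lam ≤ lam 1 → a * b ≤ 4 * ∑ i, tl lam i →
  plethMult a b (n + 2) lam ≤ plethMult b a (n + 2) lam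

end Vale.Agent.P181.GK
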